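import Vale.Agent.P128.Flat.Length

/-!
# P128, piece II-c: Janiszewski's theorem and crossing points alone in their piece
-/

open MeasureTheory Set Metric Filter
open scoped ENNReal Topology Real

noncomputable section

namespace Vale.Agent.P128.Flat

theorem countable_two_pi_int : (range fun n : ℤ => (n : ℝ) * (2 * π)).Countable :=
  countable_range _

/-- Janiszewski: two disjoint closed sets which separately do not separate two points of the plane do
not separate them together. -/
theorem janiszewski {A B : Set ℂ} (hA : IsClosed A) (hB : IsClosed B) (hd : Disjoint A B) {x y : ℂ}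
    (hxA : y ∈ connectedComponentIn Aᶜ x) (hxB : y ∈ connectedComponentIn Bᶜ x) :
    y ∈ connectedComponentIn (A ∪ B)ᶜ x := by
  classical
  by_contra hy
  obtain ⟨f, hf0, hf1, -⟩ := exists_continuous_zero_one_of_isClosed hA hB hd
  have hxA' : x ∉ A := connectedComponentIn_nonempty_iff.1 ⟨y, hxA⟩
  have hxB' : x ∉ B := connectedComponentIn_nonempty_iff.1 ⟨y, hxB⟩
  set U := connectedComponentIn (A ∪ B)ᶜ x with hU
  have hUo : IsOpen U := (hA.union hB).isOpen_compl.connectedComponentIn
  have hxU : x ∈ U := mem_connectedComponentIn (by simp [hxA', hxB'])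
  have hnear : ∀ z, z ∉ U → z ∉ A ∪ B → ∀ᶠ w in 𝓝 z, w ∉ U := by
    intro z hz hzAB
    filter_upwards [((hA.union hB).isOpen_compl.connectedComponentIn (x := z)).mem_nhds
      (mem_connectedComponentIn hzAB)] with w hw hwU
    have e1 := connectedComponentIn_eq hw
    have e2 : U = connectedComponentIn (A ∪ B)ᶜ w := connectedComponentIn_eq hwU
    exact hz (by rw [e2, ← e1]; exact mem_connectedComponentIn hzAB)
  set hfun : ℂ → Circle := fun z => if z ∈ U then Circle.exp (2 * π * f z) else 1 with hh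
  have hc : Continuous hfun := by
    rw [continuous_iff_continuousAt]
    intro z
    have hce : ContinuousAt (fun z => Circle.exp (2 * π * f z)) z := by fun_prop
    by_cases hz : z ∈ U
    · refine hce.congr ?_
      filter_upwards [hUo.mem_nhds hz] with w hw
      simp [hh, hw]
    by_cases hzAB : z ∈ A ∪ B
    · have he : Circle.exp (2 * π * f z) = 1 := by
        rcases hzAB with h | h
        · simp [hf0 h]
        · simp [hf1 h]
      rw [ContinuousAt, show hfun z = 1 by simp [hh, hz]]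
      refine Tendsto.if' ?_ tendsto_const_nhds
      simpa [he] using hce.tendsto
    · refine (continuousAt_const (y := (1 : Circle))).congr ?_
      filter_upwards [hnear z hz hzAB] with w hw
      simp [hh, hw]
  obtain ⟨θ, ⟨-, hθ⟩, -⟩ := Circle.isCoveringMap_exp.existsUnique_continuousMap_lifts
    ⟨hfun, hc⟩ x (2 * π * f x) (by simp [hh, hxU])
  have hθ' : ∀ z, Circle.exp (θ z) = hfun z := fun z => congrFun hθ z
  have key : ∀ (W : Set ℂ) (c : ℝ), IsPreconnected W →
      (∀ z ∈ W, z ∈ A ∪ B → z ∉ U → f z = c) → (c = 0 ∨ c = 1) → x ∈ W → y ∈ W →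
      θ y = θ x - 2 * π * (f x - c) := by
    intro W c hW hWc hc01 hxW hyW
    set g : ℂ → ℝ := fun z => if z ∈ U then θ z - 2 * π * (f z - c) else θ z with hg
    have hgc : ContinuousOn g W := by
      intro z hzW
      refine ContinuousAt.continuousWithinAt ?_
      have h1 : ContinuousAt (fun z => θ z - 2 * π * (f z - c)) z := by fun_prop
      have h2 : ContinuousAt θ z := θ.continuous.continuousAt
      by_cases hz : z ∈ U
      · refine h1.congr ?_
        filter_upwards [hUo.mem_nhds hz] with w hw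
        simp [hg, hw]
      by_cases hzAB : z ∈ A ∪ B
      · rw [ContinuousAt, show g z = θ z by simp [hg, hz]]
        refine Tendsto.if' ?_ h2.tendsto
        simpa [hWc z hzW hzAB hz] using h1.tendsto
      · refine h2.congr ?_
        filter_upwards [hnear z hz hzAB] with w hw
        simp [hg, hw]
    have hval : g '' W ⊆ range fun n : ℤ => (n : ℝ) * (2 * π) := by
      rintro _ ⟨z, -, rfl⟩
      have hone : Circle.exp (g z) = 1 := by
        by_cases hz : z ∈ U
        · rcases hc01 with rfl | rfl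
          · simp [hg, hz, Circle.exp_sub, hθ', hh]
          · simp [hg, hz, mul_sub, Circle.exp_sub, hθ', hh]
        · simp [hg, hz, hθ', hh]
      obtain ⟨n, hn⟩ := Circle.exp_eq_one.1 hone
      exact ⟨n, hn.symm⟩
    have hs := countable_two_pi_int.isTotallyDisconnected (g '' W) hval
      (hW.image g hgc) (mem_image_of_mem g hyW) (mem_image_of_mem g hxW)
    simp only [hg, if_neg hy, if_pos hxU] at hs
    exact hs
  have h1 := key _ 1 isPreconnected_connectedComponentIn
    (fun z hz hzAB _ => by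
      rcases hzAB with h | h
      · exact absurd h (connectedComponentIn_subset _ _ hz)
      · simp [hf1 h])
    (Or.inr rfl) (mem_connectedComponentIn hxA') hxA
  have h0 := key _ 0 isPreconnected_connectedComponentIn
    (fun z hz hzAB _ => by
      rcases hzAB with h | h
      · simp [hf0 h]
      · exact absurd h (connectedComponentIn_subset _ _ hz))
    (Or.inl rfl) (mem_connectedComponentIn hxB') hxB
  linarith [Real.pi_pos]

/-- Radial projection to the closed disc. -/
def radial (x : ℂ) (r : ℝ) (z : ℂ) : ℂ := x + (r / max r ‖z - x‖) • (z - x)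

theorem continuous_radial (x : ℂ) {r : ℝ} (hr : 0 < r) : Continuous (radial x r) := by
  have : ∀ z : ℂ, max r ‖z - x‖ ≠ 0 := fun z => (lt_of_lt_of_le hr (le_max_left _ _)).ne'
  unfold radial
  fun_prop (disch := assumption)

theorem radial_mem {x : ℂ} {r : ℝ} (hr : 0 < r) (z : ℂ) : radial x r z ∈ closedBall x r := by
  have hm : 0 < max r ‖z - x‖ := lt_of_lt_of_le hr (le_max_left _ _)
  rw [radial, mem_closedBall, dist_eq_norm, add_sub_cancel_left, norm_smul,
    Real.norm_of_nonneg (by positivity), div_mul_eq_mul_div, div_le_iff₀ hm]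
  exact mul_le_mul_of_nonneg_left (le_max_right _ _) hr.le

theorem radial_of_mem {x : ℂ} {r : ℝ} (hr : 0 < r) {z : ℂ} (hz : z ∈ closedBall x r) :
    radial x r z = z := by
  rw [mem_closedBall, dist_eq_norm] at hz
  rw [radial, max_eq_left hz, div_self hr.ne', one_smul, add_sub_cancel]

theorem isPreconnected_sphere_diff (x : ℂ) {r : ℝ} (hr : 0 < r) {z : ℂ} (hz : z ∈ sphere x r) :
    IsPreconnected (sphere x r \ {z}) := by
  obtain ⟨θ₀, -, rfl⟩ : ∃ θ₀ ∈ Ioc 0 (2 * π), circleMap x r θ₀ = z := by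
    rwa [← mem_image, image_circleMap_Ioc, abs_of_pos hr]
  have e : sphere x r \ {circleMap x r θ₀} = circleMap x r '' Ioo θ₀ (θ₀ + 2 * π) := by
    apply Subset.antisymm
    · rintro w ⟨hw, hne⟩
      obtain ⟨φ, -, rfl⟩ : ∃ φ ∈ Ioc 0 (2 * π), circleMap x r φ = w := by
        rwa [← mem_image, image_circleMap_Ioc, abs_of_pos hr]
      obtain ⟨ψ, hψ, he⟩ := (periodic_circleMap x r).exists_mem_Ico Real.two_pi_pos φ θ₀
      refine ⟨ψ, ⟨hψ.1.lt_of_ne fun e => hne ?_, hψ.2⟩, he.symm⟩
      rw [e, mem_singleton_iff, he]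
    · rintro _ ⟨φ, hφ, rfl⟩
      refine ⟨circleMap_mem_sphere x hr.le φ, fun e => hφ.1.ne ?_⟩
      exact injOn_circleMap_of_abs_sub_le' (a := θ₀) (b := θ₀ + 2 * π) hr.ne' (by linarith)
        ⟨le_rfl, by linarith [Real.pi_pos]⟩ ⟨hφ.1.le, hφ.2⟩ (mem_singleton_iff.1 e).symm
  rw [e]
  exact isPreconnected_Ioo.image _ (continuous_circleMap x r).continuousOn

theorem exists_near_notMem {x : ℂ} {r : ℝ} (hr : 0 < r) {K : Set ℂ}
    (hfin : (K ∩ sphere x r).Finite) {z : ℂ} (hz : z ∈ sphere x r) {δ : ℝ} (hδ : 0 < δ) :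
    ∃ a ∈ sphere x r, a ∉ K ∧ dist a z < δ := by
  obtain ⟨θ₀, -, rfl⟩ : ∃ θ₀ ∈ Ioc 0 (2 * π), circleMap x r θ₀ = z := by
    rwa [← mem_image, image_circleMap_Ioc, abs_of_pos hr]
  obtain ⟨η, hη, hη'⟩ := Metric.continuousAt_iff.1
    ((continuous_circleMap x r).continuousAt (x := θ₀)) δ hδ
  set J := Ioo θ₀ (θ₀ + min η π)
  have hJ : J.Infinite := Ioo_infinite (by simp [hη, Real.pi_pos])
  have hinj : InjOn (circleMap x r) J := by
    have h1 : InjOn (circleMap x r) (Ico θ₀ (θ₀ + 2 * π)) :=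
      injOn_circleMap_of_abs_sub_le' (a := θ₀) (b := θ₀ + 2 * π) hr.ne' (by linarith)
    refine h1.mono ?_
    intro φ hφ
    exact ⟨hφ.1.le, by linarith [hφ.2, min_le_right η π, Real.pi_pos]⟩
  obtain ⟨w, ⟨φ, hφ, rfl⟩, hwK⟩ := ((hJ.image hinj).sdiff hfin).nonempty
  refine ⟨_, circleMap_mem_sphere x hr.le φ,
    fun h => hwK ⟨h, circleMap_mem_sphere x hr.le φ⟩, hη' ?_⟩
  rw [Real.dist_eq, abs_of_nonneg (by linarith [hφ.1])]
  linarith [hφ.2, min_le_left η π]

/-- Points of a compact set in different components are separated by a clopen piece. -/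
theorem exists_piece {S : Set ℂ} (hS : IsCompact S) {z : ℂ} (hz : z ∈ S) {Z : Finset ℂ}
    (hZ : ∀ w ∈ Z, w ≠ z → w ∉ connectedComponentIn S z) :
    ∃ C ⊆ S, IsClosed C ∧ IsClosed (S \ C) ∧ z ∈ C ∧ ∀ w ∈ Z, w ≠ z → w ∉ C := by
  classical
  have : CompactSpace S := isCompact_iff_compactSpace.1 hS
  set a : S := ⟨z, hz⟩
  have hsep : ∀ w ∈ Z, w ≠ z → ∃ c : Set S, IsClopen c ∧ a ∈ c ∧ ∀ v ∈ c, (v : ℂ) ≠ w := by
    intro w hw hwz
    by_cases hwS : w ∈ S
    · have hne : (⟨w, hwS⟩ : S) ∉ connectedComponent a := fun hh => hZ w hw hwz <| by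
        refine (isPreconnected_connectedComponent.image _
          continuous_subtype_val.continuousOn).subset_connectedComponentIn
            ⟨a, mem_connectedComponent, rfl⟩ (by rintro _ ⟨v, -, rfl⟩; exact v.2)
            ⟨_, hh, rfl⟩
      rw [connectedComponent_eq_iInter_isClopen, mem_iInter, not_forall] at hne
      obtain ⟨⟨c, hc, hac⟩, hwc⟩ := hne
      refine ⟨c, hc, hac, fun v hv e => hwc ?_⟩
      have : v = ⟨w, hwS⟩ := Subtype.ext e
      exact this ▸ hv
    · exact ⟨univ, isClopen_univ, trivial, fun v _ e => hwS (e ▸ v.2)⟩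
  choose! c hc hac hcw using hsep
  set C₀ : Set S := ⋂ w ∈ Z.filter (· ≠ z), c w
  have hC₀ : IsClopen C₀ := isClopen_biInter_finset fun w hw => by
    rw [Finset.mem_filter] at hw; exact hc w hw.1 hw.2
  refine ⟨Subtype.val '' C₀, by rintro _ ⟨v, -, rfl⟩; exact v.2,
    hS.isClosed.isClosedMap_subtype_val _ hC₀.1, ?_, ⟨a, ?_, rfl⟩, ?_⟩
  · have e : S \ Subtype.val '' C₀ = Subtype.val '' C₀ᶜ := by
      rw [image_compl_eq_range_sdiff_image Subtype.val_injective, Subtype.range_coe]
    rw [e]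
    exact hS.isClosed.isClosedMap_subtype_val _ hC₀.compl.1
  · simp only [C₀, mem_iInter, Finset.mem_filter]
    exact fun w hw => hac w hw.1 hw.2
  · rintro w hw hwz ⟨v, hv, rfl⟩
    simp only [C₀, mem_iInter, Finset.mem_filter] at hv
    exact hcw _ hw hwz v (hv _ ⟨hw, hwz⟩) rfl

/-- A crossing point alone in its piece has one component of the complement around it. -/
theorem exists_removable {K : Set ℂ} (hK : IsClosed K) {x : ℂ} {r : ℝ} (hr : 0 < r) {Z : Finset ℂ}
    (hZ : (Z : Set ℂ) = K ∩ sphere x r) {z : ℂ} (hz : z ∈ Z)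
    (hiso : ∀ w ∈ Z, w ≠ z → w ∉ connectedComponentIn (K ∩ closedBall x r) z) :
    ∃ δ > 0, (∀ a ∈ sphere x r, a ∉ K → dist a z < δ →
      ∀ b ∈ sphere x r, b ∉ K → dist b z < δ → b ∈ connectedComponentIn Kᶜ a) ∧
      ∃ a ∈ sphere x r, a ∉ K ∧ dist a z < δ := by
  have hfin : (K ∩ sphere x r).Finite := hZ ▸ Z.finite_toSet
  have hzK : z ∈ K ∩ sphere x r := (Set.ext_iff.1 hZ z).1 (Finset.mem_coe.2 hz)
  have hzS : z ∈ K ∩ closedBall x r := ⟨hzK.1, sphere_subset_closedBall hzK.2⟩
  set S := K ∩ closedBall x r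
  have hS : IsCompact S := (isCompact_closedBall x r).inter_left hK
  obtain ⟨C, hCS, hCc, hDc, hzC, hCo⟩ := exists_piece hS hzS hiso
  set A := radial x r ⁻¹' C
  set B := radial x r ⁻¹' (S \ C)
  have hρ := continuous_radial x hr
  have hzr : radial x r z = z := radial_of_mem hr hzS.2
  have hzB : z ∉ B := fun h => by
    have h' : radial x r z ∈ S \ C := h
    rw [hzr] at h'
    exact h'.2 hzC
  obtain ⟨δ, hδ, hδB⟩ := Metric.isOpen_iff.1 (hDc.preimage hρ).isOpen_compl z hzB
  refine ⟨δ, hδ, fun a ha haK had b hb hbK hbd => ?_,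
    exists_near_notMem hr hfin hzK.2 hδ⟩
  have hB' : b ∈ connectedComponentIn Bᶜ a :=
    (convex_ball z δ).isPreconnected.subset_connectedComponentIn had hδB hbd
  have hA' : b ∈ connectedComponentIn Aᶜ a := by
    refine (isPreconnected_sphere_diff x hr hzK.2).subset_connectedComponentIn
      ⟨ha, fun e => haK (mem_singleton_iff.1 e ▸ hzK.1)⟩ ?_
      ⟨hb, fun e => hbK (mem_singleton_iff.1 e ▸ hzK.1)⟩
    rintro w ⟨hw, hwz⟩ hwA
    have hwA' : radial x r w ∈ C := hwA
    rw [radial_of_mem hr (sphere_subset_closedBall hw)] at hwA'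
    have hwZ : w ∈ Z := by
      have := (Set.ext_iff.1 hZ w).2 ⟨(hCS hwA').1, hw⟩
      exact_mod_cast this
    exact hCo w hwZ hwz hwA'
  have hd : Disjoint A B := (disjoint_sdiff_self_right).preimage _
  have key := janiszewski (hCc.preimage hρ) (hDc.preimage hρ) hd hA' hB'
  have hU : A ∪ B = radial x r ⁻¹' S := by
    rw [← preimage_union, union_sdiff_cancel hCS]
  rw [hU] at key
  have ha' : radial x r a = a := radial_of_mem hr (sphere_subset_closedBall ha)
  have hb' : radial x r b = b := radial_of_mem hr (sphere_subset_closedBall hb)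
  have hsub : radial x r '' connectedComponentIn (radial x r ⁻¹' S)ᶜ a ⊆ Kᶜ := by
    rintro _ ⟨w, hw, rfl⟩ hwK
    exact connectedComponentIn_subset _ _ hw ⟨hwK, radial_mem hr w⟩
  have haS : a ∈ (radial x r ⁻¹' S)ᶜ := fun h => by
    have h' : radial x r a ∈ S := h
    rw [ha'] at h'
    exact haK h'.1
  exact (isPreconnected_connectedComponentIn.image _ hρ.continuousOn).subset_connectedComponentIn
    ⟨a, mem_connectedComponentIn haS, ha'⟩ hsub ⟨b, key, hb'⟩

end Vale.Agent.P128.Flat
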