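import Vale.Agent.P128.Flat.Length
import Vale.Agent.P128.Competitor

/-!
# P128, piece II-c: the star competitor

In the flat case the energy is length.  The crack set inside a disc may be replaced by the segments
from an interior point to the crossing points; a crossing point may be left out when the complement
is connected around it.
-/

open MeasureTheory Set Metric Filter
open scoped ENNReal Topology Real RealInnerProductSpace

noncomputable section

namespace Vale.Agent.P128.Flat

variable {K : Set ℂ} {u : ℂ → ℝ} {x F : ℂ} {r : ℝ}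

/-- In the flat case `u` is constant on each component of the complement. -/
theorem u_eq_of_mem_component (h : IsGM K u) (hflat : ∀ z ∉ K, gradSq u z = 0) {a b : ℂ}
    (hab : b ∈ connectedComponentIn Kᶜ a) : u b = u a := by
  have ha : a ∈ Kᶜ := connectedComponentIn_nonempty_iff.1 ⟨b, hab⟩
  refine (h.isOpen_compl.connectedComponentIn).is_const_of_fderiv_eq_zero (𝕜 := ℝ) (f := u)
    isPreconnected_connectedComponentIn (fun z hz => ?_) (fun z hz => ?_) hab
    (mem_connectedComponentIn ha)
  · exact (h.differentiableAt (connectedComponentIn_subset _ _ hz)).differentiableWithinAt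
  · exact fderiv_eq_zero_of_gradSq_eq_zero (hflat z (connectedComponentIn_subset _ _ hz))

/-- The larger root of `‖F + t (w - F) - x‖ = r`. -/
def root (x F : ℂ) (r : ℝ) (w : ℂ) : ℝ :=
  (-⟪F - x, w - F⟫ +
    Real.sqrt (⟪F - x, w - F⟫ ^ 2 + ‖w - F‖ ^ 2 * (r ^ 2 - ‖F - x‖ ^ 2))) / ‖w - F‖ ^ 2

/-- Projection from `F` of the disc to its circle; the identity outside. -/
def proj (x F : ℂ) (r : ℝ) (w : ℂ) : ℂ := F + max 1 (root x F r w) • (w - F)

theorem root_spec (hF : ‖F - x‖ < r) {w : ℂ} (hw : w ≠ F) :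
    0 < root x F r w ∧ ‖F + root x F r w • (w - F) - x‖ = r := by
  have hr : 0 < r := lt_of_le_of_lt (norm_nonneg _) hF
  have hn : 0 < ‖w - F‖ ^ 2 := by have := norm_pos_iff.2 (sub_ne_zero.2 hw); positivity
  set β := ⟪F - x, w - F⟫
  set n := ‖w - F‖ ^ 2
  have hg : 0 < r ^ 2 - ‖F - x‖ ^ 2 := by nlinarith [norm_nonneg (F - x)]
  set D := β ^ 2 + n * (r ^ 2 - ‖F - x‖ ^ 2) with hD
  have hD0 : 0 ≤ D := by positivity
  have hs : |β| < Real.sqrt D := by
    rw [← Real.sqrt_sq_eq_abs]
    exact Real.sqrt_lt_sqrt (sq_nonneg _) (by nlinarith)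
  set t := root x F r w with ht
  have hte : t * n = -β + Real.sqrt D := by
    rw [ht, root]; exact div_mul_cancel₀ _ hn.ne'
  refine ⟨div_pos (by linarith [le_abs_self β]) hn, ?_⟩
  have h1 : ‖F + t • (w - F) - x‖ ^ 2 = ‖F - x‖ ^ 2 + 2 * t * β + t ^ 2 * n := by
    rw [add_sub_right_comm, norm_add_sq_real, real_inner_smul_right, norm_smul, mul_pow,
      Real.norm_eq_abs, sq_abs]
    ring
  have h2 : ‖F + t • (w - F) - x‖ ^ 2 = r ^ 2 := by
    rw [h1]
    have h3 : (t * n + β) ^ 2 = D := by rw [hte]; ring_nf; rw [Real.sq_sqrt hD0]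
    have h4 : n * (2 * t * β + t ^ 2 * n) = n * (r ^ 2 - ‖F - x‖ ^ 2) := by
      rw [hD] at h3; linear_combination h3
    linarith [mul_left_cancel₀ hn.ne' h4]
  exact (pow_left_inj₀ (norm_nonneg _) hr.le two_ne_zero).1 h2

theorem root_le_one (hF : ‖F - x‖ < r) {w : ℂ} (hw : w ∉ ball x r) :
    root x F r w ≤ 1 := by
  rw [mem_ball, dist_eq_norm, not_lt] at hw
  have hwF : w ≠ F := fun e => by rw [e] at hw; linarith
  obtain ⟨ht, hts⟩ := root_spec hF hwF
  by_contra hlt
  rw [not_le] at hlt
  have hmem : w ∈ segment ℝ F (F + root x F r w • (w - F)) := by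
    rw [segment_eq_image']
    exact ⟨(root x F r w)⁻¹, ⟨(inv_pos.2 ht).le, inv_le_one_of_one_le₀ hlt.le⟩, by
      simp only [add_sub_cancel_left, smul_smul, inv_mul_cancel₀ ht.ne', one_smul, add_sub_cancel]⟩
  rw [segment_eq_image'] at hmem
  obtain ⟨θ, hθ, hwe⟩ := hmem
  rw [add_sub_cancel_left] at hwe
  have hθ1 : θ < 1 := by
    by_contra h1
    have hθe : θ = 1 := le_antisymm hθ.2 (not_lt.1 h1)
    simp only [hθe, one_smul] at hwe
    have hwe : root x F r w • (w - F) = w - F := by rw [eq_sub_iff_add_eq, add_comm]; exact hwe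
    have := congrArg (fun v : ℂ => ‖v‖) hwe
    simp only [norm_smul, Real.norm_eq_abs, abs_of_pos ht] at this
    have hp : 0 < ‖w - F‖ := norm_pos_iff.2 (sub_ne_zero.2 hwF)
    nlinarith
  have hb : ‖w - x‖ < r := by
    have e : w - x = (1 - θ) • (F - x) + θ • (F + root x F r w • (w - F) - x) := by
      conv_lhs => rw [← hwe]
      module
    rw [e]
    refine (norm_add_le _ _).trans_lt ?_
    rw [norm_smul, norm_smul, hts, Real.norm_of_nonneg (by linarith), Real.norm_of_nonneg hθ.1]
    nlinarith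
  linarith

theorem proj_of_notMem (hF : ‖F - x‖ < r) {w : ℂ} (hw : w ∉ ball x r) : proj x F r w = w := by
  rw [proj, max_eq_left (root_le_one hF hw), one_smul, add_sub_cancel]

theorem one_lt_root (hF : ‖F - x‖ < r) {w : ℂ} (hw : w ∈ ball x r) (hwF : w ≠ F) :
    1 < root x F r w := by
  obtain ⟨ht, hts⟩ := root_spec hF hwF
  by_contra hle
  rw [not_lt] at hle
  rw [mem_ball, dist_eq_norm] at hw
  have e : F + root x F r w • (w - F) - x =
      (1 - root x F r w) • (F - x) + root x F r w • (w - x) := by module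
  rw [e] at hts
  have h1 := norm_add_le ((1 - root x F r w) • (F - x)) (root x F r w • (w - x))
  rw [hts, norm_smul, norm_smul, Real.norm_of_nonneg (by linarith),
    Real.norm_of_nonneg ht.le] at h1
  nlinarith

theorem proj_mem_sphere (hF : ‖F - x‖ < r) {w : ℂ} (hw : w ∈ closedBall x r) (hwF : w ≠ F) :
    proj x F r w ∈ sphere x r ∧ w ∈ segment ℝ F (proj x F r w) := by
  by_cases hb : w ∈ ball x r
  · obtain ⟨ht, hts⟩ := root_spec hF hwF
    have h1 := one_lt_root hF hb hwF
    rw [proj, max_eq_right h1.le]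
    refine ⟨by rwa [mem_sphere, dist_eq_norm], ?_⟩
    rw [segment_eq_image']
    exact ⟨(root x F r w)⁻¹, ⟨(inv_pos.2 ht).le, inv_le_one_of_one_le₀ h1.le⟩, by
      simp only [add_sub_cancel_left, smul_smul, inv_mul_cancel₀ ht.ne', one_smul, add_sub_cancel]⟩
  · rw [proj_of_notMem hF hb]
    refine ⟨?_, right_mem_segment _ _ _⟩
    rw [mem_closedBall] at hw
    rw [mem_ball, not_lt] at hb
    exact mem_sphere.2 (le_antisymm hw hb)

theorem continuousAt_proj {w : ℂ} (hw : w ≠ F) : ContinuousAt (proj x F r) w := by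
  have h : ‖w - F‖ ^ 2 ≠ 0 := pow_ne_zero 2 (norm_ne_zero_iff.2 (sub_ne_zero.2 hw))
  unfold proj root
  fun_prop (disch := assumption)

/-- The star competitor. -/
theorem length_le_star (hR : GenReplaceSpec) (h : IsGM K u) (hflat : ∀ z ∉ K, gradSq u z = 0)
    (hF : ‖F - x‖ < r) {Z Z' : Finset ℂ} (hZ : (Z : Set ℂ) = K ∩ sphere x r) (hsub : Z' ⊆ Z)
    (hne : Z'.Nonempty)
    (hrem : ∀ z ∈ Z, z ∉ Z' → ∃ δ > 0, (∀ a ∈ sphere x r, a ∉ K → dist a z < δ →
      ∀ b ∈ sphere x r, b ∉ K → dist b z < δ → b ∈ connectedComponentIn Kᶜ a) ∧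
      ∃ a ∈ sphere x r, a ∉ K ∧ dist a z < δ) :
    μH[1] (K ∩ closedBall x r) ≤ ENNReal.ofReal (∑ z ∈ Z', ‖z - F‖) := by
  classical
  set S := closedBall x r with hS
  set L : Set ℂ := (K \ ball x r) ∪ star F Z' with hL
  have hstar : star F Z' ⊆ S := by
    intro w hw
    simp only [star, mem_iUnion, exists_prop] at hw
    obtain ⟨z, hz, hwz⟩ := hw
    have hzs : z ∈ sphere x r := ((Set.ext_iff.1 hZ z).1 (hsub hz)).2
    exact (convex_closedBall x r).segment_subset (by rw [mem_closedBall, dist_eq_norm]; exact hF.le)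
      (sphere_subset_closedBall hzs) hwz
  have hFL : F ∈ L := by
    obtain ⟨z, hz⟩ := hne
    exact Or.inr (mem_iUnion₂.2 ⟨z, hz, left_mem_segment _ _ _⟩)
  have hLc : IsClosed L :=
    (h.isClosed.inter isOpen_ball.isClosed_compl).union (isCompact_star F Z').isClosed
  have hLS : L \ S = K \ S := by
    ext w
    constructor
    · rintro ⟨hw | hw, hwS⟩
      · exact ⟨hw.1, hwS⟩
      · exact absurd (hstar hw) hwS
    · rintro ⟨hw, hwS⟩
      exact ⟨Or.inl ⟨hw, fun hb => hwS (ball_subset_closedBall hb)⟩, hwS⟩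
  choose! δ hδ hδc a ha haK had using hrem
  set rep : ℂ → ℂ := fun w => if proj x F r w ∈ K then a (proj x F r w) else proj x F r w
    with hrep
  have hout : ∀ w, w ∉ S → w ∉ K → rep w = w := by
    intro w hwS hwK
    have e := proj_of_notMem hF (fun hb => hwS (ball_subset_closedBall hb))
    simp [hrep, e, hwK]
  have hloc : ∀ w ∉ L, ∀ᶠ v in 𝓝 w, rep v ∈ connectedComponentIn Kᶜ (rep w) := by
    intro w hwL
    have hwF : w ≠ F := fun e => hwL (e ▸ hFL)
    have hc := continuousAt_proj (x := x) (r := r) hwF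
    by_cases hpK : proj x F r w ∈ K
    · -- a left out crossing point
      have hwb : w ∈ ball x r := by
        by_contra hb
        rw [proj_of_notMem hF hb] at hpK
        exact hwL (Or.inl ⟨hpK, hb⟩)
      obtain ⟨hps, hseg⟩ := proj_mem_sphere hF (ball_subset_closedBall hwb) hwF
      set z := proj x F r w with hz
      have hzZ : z ∈ Z := by
        have := (Set.ext_iff.1 hZ z).2 ⟨hpK, hps⟩
        exact_mod_cast this
      have hzZ' : z ∉ Z' := fun hh => hwL (Or.inr (mem_iUnion₂.2 ⟨z, hh, hseg⟩))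
      have hrw : rep w = a z := by simp [hrep, ← hz, hpK]
      have hfar : ∀ᶠ p in 𝓝 z, p ∉ (Z.erase z : Set ℂ) :=
        (Z.erase z).finite_toSet.isClosed.isOpen_compl.mem_nhds (by simp)
      filter_upwards [isOpen_ball.mem_nhds hwb, hLc.isOpen_compl.mem_nhds hwL,
        hc.eventually (ball_mem_nhds z (hδ z hzZ hzZ')), hc.eventually hfar] with v hv hvL hvd hvZ
      have hvF : v ≠ F := fun e => hvL (e ▸ hFL)
      have hvs := (proj_mem_sphere hF (ball_subset_closedBall hv) hvF).1
      rw [hrw]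
      by_cases hvK : proj x F r v ∈ K
      · have hvz : proj x F r v = z := by
          have := (Set.ext_iff.1 hZ _).2 ⟨hvK, hvs⟩
          by_contra hne
          exact hvZ (by simp [hne]; exact_mod_cast this)
        simp only [hrep, hvz, hpK, if_true]
        exact mem_connectedComponentIn (haK z hzZ hzZ')
      · simp only [hrep, hvK, if_false]
        exact hδc z hzZ hzZ' (a z) (ha z hzZ hzZ') (haK z hzZ hzZ') (had z hzZ hzZ') _ hvs hvK hvd
    · have hrw : rep w = proj x F r w := by simp [hrep, hpK]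
      obtain ⟨ε, hε, hεK⟩ := Metric.isOpen_iff.1 h.isOpen_compl _ hpK
      filter_upwards [hc.eventually (ball_mem_nhds _ hε)] with v hv
      rw [hrw, show rep v = proj x F r v from if_neg (hεK hv)]
      exact (convex_ball _ ε).isPreconnected.subset_connectedComponentIn (mem_ball_self hε) hεK hv
  set v : ℂ → ℝ := fun w => u (rep w) with hv
  have hvc : ∀ w ∉ L, v =ᶠ[𝓝 w] fun _ => v w := fun w hw => by
    filter_upwards [hloc w hw] with y hy using u_eq_of_mem_component h hflat hy
  have hvl : LocallyLipschitzOn Lᶜ v := fun w hw =>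
    ⟨0, _, nhdsWithin_le_nhds (hvc w hw),
      LipschitzOnWith.of_dist_le_mul fun p hp q hq => by
        simp [show v p = v w from hp, show v q = v w from hq]⟩
  have hvu : ∀ w ∉ S ∪ K, v w = u w := fun w hw => by
    simp only [mem_union, not_or] at hw
    simp only [hv, hout w hw.1 hw.2]
  have hsep : ∃ R₀ : ℝ, ∀ R, R₀ ≤ R → KeepsSeparation K L 0 R := by
    refine ⟨‖x‖ + r + 1, fun R hR p q hp hq hs hpq => ?_⟩
    simp only [mem_union, not_or, mem_ball_zero_iff, not_lt] at hp hq
    have hpS : ∀ w : ℂ, R ≤ ‖w‖ → w ∉ S := fun w hw hwS => by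
      rw [hS, mem_closedBall, dist_eq_norm] at hwS
      linarith [norm_le_insert' w x]
    have hpL : ∀ w : ℂ, R ≤ ‖w‖ → w ∉ K → w ∉ L := fun w hw hwK hwL => by
      rcases hwL with h1 | h1
      · exact hwK h1.1
      · exact hpS w hw (hstar h1)
    set C := connectedComponentIn Lᶜ p with hC
    have hqC : q ∈ C := by
      have := mem_connectedComponentIn (F := Lᶜ) (hpL q hq.1 hq.2)
      rwa [← hpq] at this
    have hconst : ∀ w ∈ C, connectedComponentIn Kᶜ (rep w) = connectedComponentIn Kᶜ (rep p) := by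
      intro w hw
      refine (isPreconnected_connectedComponentIn (F := Lᶜ) (x := p)).induction₂
        (fun y z => connectedComponentIn Kᶜ (rep y) = connectedComponentIn Kᶜ (rep z))
        (fun y hy => ?_) (fun y z w _ _ _ h1 h2 => h1.trans h2) (fun y z _ _ h1 => h1.symm)
        hw (mem_connectedComponentIn (hpL p hp.1 hp.2))
      filter_upwards [nhdsWithin_le_nhds (hloc y (connectedComponentIn_subset _ _ hy))] with z hz
      exact connectedComponentIn_eq hz
    have := hconst q hqC
    rw [hout q (hpS q hq.1) hq.2, hout p (hpS p hp.1) hp.2] at this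
    exact hs this.symm
  have key := hR K u h S L v (isCompact_closedBall x r) hLc hvl hLS hvu hsep
  have e0 : ∀ (A : Set ℂ) (f : ℂ → ℝ), IsClosed A → (∀ z ∉ A, gradSq f z = 0) →
      dirichlet A f S = 0 := by
    intro A f hA hf
    refine (setLIntegral_eq_zero ((isCompact_closedBall x r).isClosed.measurableSet.diff
      hA.measurableSet) fun z hz => ?_)
    simp [hf z hz.2]
  rw [energy, energy, e0 K u h.isClosed hflat,
    e0 L v hLc (fun z hz => gradSq_eq_zero_of_eventuallyEq_const (hvc z hz)), zero_add,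
    zero_add] at key
  refine key.trans ?_
  have hsubL : L ∩ S ⊆ (K ∩ sphere x r) ∪ star F Z' := by
    rintro w ⟨hw | hw, hwS⟩
    · refine Or.inl ⟨hw.1, mem_sphere.2 (le_antisymm (mem_closedBall.1 hwS) ?_)⟩
      exact not_lt.1 fun hb => hw.2 (mem_ball.2 hb)
    · exact Or.inr hw
  refine (measure_mono hsubL).trans ((measure_union_le _ _).trans ?_)
  have hZ0 : μH[1] (K ∩ sphere x r) = 0 := by
    have := Measure.nullSingletonClass_hausdorff ℂ (d := 1) zero_lt_one
    rw [← hZ]
    exact Z.finite_toSet.measure_zero _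
  rw [hZ0, zero_add]
  exact hausdorff_star_le F Z'

end Vale.Agent.P128.Flat
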