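import Vale.Agent.P128.Flat.Connected
import Vale.Agent.P128.Flat.StarCompetitor
import Vale.Agent.P128.Topo.Components
import Vale.Agent.P128.Continuum

/-!
# P128, piece II-c: the crack set in a disc with two or three crossing points
-/

open MeasureTheory Set Metric Filter
open scoped ENNReal Topology Real RealInnerProductSpace

noncomputable section

namespace Vale.Agent.P128.Flat

variable {K : Set ℂ} {u : ℂ → ℝ} {x : ℂ} {r : ℝ}

/-- A radius with few crossings and more length than any star missing one of them. -/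
structure Crossing (K : Set ℂ) (x : ℂ) (r : ℝ) (Z : Finset ℂ) : Prop where
  pos : 0 < r
  eq : (Z : Set ℂ) = K ∩ sphere x r
  two : 2 ≤ Z.card
  three : Z.card ≤ 3
  big : ENNReal.ofReal (((Z.card : ℝ) - 1) * r) < μH[1] (K ∩ ball x r)

variable {Z : Finset ℂ}

theorem Crossing.mem (c : Crossing K x r Z) {z : ℂ} (hz : z ∈ Z) : z ∈ K ∧ ‖z - x‖ = r := by
  have h := (Set.ext_iff.1 c.eq z).1 (Finset.mem_coe.2 hz)
  exact ⟨h.1, by rw [← dist_eq_norm]; exact mem_sphere.1 h.2⟩

theorem Crossing.sum_center (c : Crossing K x r Z) {Z' : Finset ℂ} (h : Z' ⊆ Z) :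
    ∑ z ∈ Z', ‖z - x‖ = Z'.card * r := by
  rw [Finset.sum_congr rfl fun z hz => (c.mem (h hz)).2, Finset.sum_const, nsmul_eq_mul]

theorem Crossing.length_le (c : Crossing K x r Z) (hR : GenReplaceSpec) (h : IsGM K u)
    (hflat : ∀ z ∉ K, gradSq u z = 0) {F : ℂ} (hF : ‖F - x‖ < r) :
    μH[1] (K ∩ closedBall x r) ≤ ENNReal.ofReal (∑ z ∈ Z, ‖z - F‖) :=
  length_le_star hR h hflat hF c.eq subset_rfl (Finset.card_pos.1 (by have := c.two; omega))
    fun z hz hz' => absurd hz hz'

/-- The crossing points lie in one piece of the disc. -/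
theorem Crossing.component_eq (c : Crossing K x r Z) (hR : GenReplaceSpec) (h : IsGM K u)
    (hflat : ∀ z ∉ K, gradSq u z = 0) {z w : ℂ} (hz : z ∈ Z) (hw : w ∈ Z) :
    w ∈ connectedComponentIn (K ∩ closedBall x r) z := by
  classical
  set S := K ∩ closedBall x r
  have hS : ∀ a ∈ Z, a ∈ S := fun a ha =>
    ⟨(c.mem ha).1, by rw [mem_closedBall, dist_eq_norm, (c.mem ha).2]⟩
  by_contra hwz
  by_cases hiso : ∃ a ∈ Z, ∀ b ∈ Z, b ≠ a → b ∉ connectedComponentIn S a
  · obtain ⟨a, ha, haiso⟩ := hiso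
    have hne : (Z.erase a).Nonempty := Finset.card_pos.1 (by
      rw [Finset.card_erase_of_mem ha]; have := c.two; omega)
    have key := length_le_star hR h hflat (x := x) (F := x) (r := r) (by simp [c.pos]) c.eq
      (Finset.erase_subset a Z) hne fun b hb hb' => by
        have : b = a := by simpa [hb] using hb'
        subst this
        exact exists_removable h.isClosed c.pos c.eq hb haiso
    rw [c.sum_center (Finset.erase_subset a Z), Finset.card_erase_of_mem ha,
      Nat.cast_sub (by have := c.two; omega)] at key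
    exact absurd (c.big.trans_le ((measure_mono (inter_subset_inter_right K
      ball_subset_closedBall)).trans key)) (by simp)
  · simp only [not_exists, not_and, not_forall, not_not] at hiso
    obtain ⟨z', hz', hz'ne, hz'c⟩ := hiso z hz
    obtain ⟨w', hw', hw'ne, hw'c⟩ := hiso w hw
    have e1 := connectedComponentIn_eq hz'c
    have e2 := connectedComponentIn_eq hw'c
    have hcc : connectedComponentIn S w ≠ connectedComponentIn S z := fun e =>
      hwz (e ▸ mem_connectedComponentIn (hS w hw))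
    have n1 : w ≠ z := fun e => hcc (by rw [e])
    have n2 : w' ≠ z := fun e => hcc (by rw [e2, e])
    have n3 : w ≠ z' := fun e => hcc (by rw [e1, e])
    have n4 : w' ≠ z' := fun e => hcc (by rw [e2, e1, e])
    have hsub : ({z, z', w, w'} : Finset ℂ) ⊆ Z := by
      simp [Finset.insert_subset_iff, hz, hz', hw, hw']
    have h4 := Finset.card_le_card hsub
    rw [Finset.card_insert_of_notMem (by simp [hz'ne.symm, n1.symm, n2.symm]),
      Finset.card_insert_of_notMem (by simp [n3.symm, n4.symm]),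
      Finset.card_insert_of_notMem (by simp [hw'ne.symm]), Finset.card_singleton] at h4
    have := c.three
    omega

/-- Arcs between crossing points inside the disc. -/
theorem Crossing.exists_arc (c : Crossing K x r Z) (hR : GenReplaceSpec) (h : IsGM K u)
    (hflat : ∀ z ∉ K, gradSq u z = 0) {z w : ℂ} (hz : z ∈ Z) (hw : w ∈ Z) :
    ∃ (γ : ℝ → ℂ) (T : ℝ), 0 ≤ T ∧ LipschitzOnWith 1 γ (Icc 0 T) ∧ γ 0 = z ∧ γ T = w ∧
      MapsTo γ (Icc 0 T) (K ∩ closedBall x r) ∧
      ∀ A : Set ℂ, MeasurableSet A →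
        volume (Icc 0 T ∩ γ ⁻¹' A) ≤ μH[1] (K ∩ closedBall x r ∩ A) := by
  set S := K ∩ closedBall x r
  have hzS : z ∈ S := ⟨(c.mem hz).1, by rw [mem_closedBall, dist_eq_norm, (c.mem hz).2]⟩
  have hSc : IsCompact S := (isCompact_closedBall x r).inter_left h.isClosed
  set Q := connectedComponentIn S z
  have hQ : IsCompact Q := hSc.of_isClosed_subset (Topo.isClosed_component hSc.isClosed z)
    (connectedComponentIn_subset _ _)
  have hQc : IsConnected Q := ⟨⟨z, mem_connectedComponentIn hzS⟩, isPreconnected_connectedComponentIn⟩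
  have hfin : μH[1] Q < ⊤ := (measure_mono (connectedComponentIn_subset S z)).trans_lt
    ((c.length_le hR h hflat (F := x) (by simp [c.pos])).trans_lt ENNReal.ofReal_lt_top)
  obtain ⟨γ, T, ha⟩ := continuum Q hQ hQc hfin z (mem_connectedComponentIn hzS) w
    (c.component_eq hR h hflat hz hw)
  exact ⟨γ, T, ha.nonneg, ha.lip, ha.source, ha.target,
    fun t ht => connectedComponentIn_subset _ _ (ha.maps ht),
    fun A hA => (ha.time A hA).trans
      (measure_mono (inter_subset_inter_left A (connectedComponentIn_subset _ _)))⟩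

/-- If a star exhausts the length, it is the crack set. -/
theorem eq_star_of_length (h : IsGM K u) {b : ℂ} {Z : Finset ℂ}
    (hsub : star b Z ⊆ K ∩ closedBall x r) (hfin : μH[1] (K ∩ closedBall x r) ≠ ⊤)
    (hle : μH[1] (K ∩ closedBall x r) ≤ μH[1] (K ∩ closedBall x r ∩ star b Z)) :
    K ∩ ball x r = star b Z ∩ ball x r := by
  refine Subset.antisymm (fun y hy => ⟨?_, hy.2⟩) fun y hy => ⟨(hsub hy.1).1, hy.2⟩
  by_contra hys
  obtain ⟨ρ, hρ, hρs⟩ := Metric.isOpen_iff.1
    (isOpen_ball.inter (isCompact_star b Z).isClosed.isOpen_compl) y ⟨hy.2, hys⟩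
  have hnull : μH[1] ((K ∩ closedBall x r) \ star b Z) = 0 := by
    have e := measure_inter_add_sdiff (μ := μH[1]) (K ∩ closedBall x r)
      (isCompact_star b Z).isClosed.measurableSet
    refine le_antisymm ?_ bot_le
    refine ENNReal.le_of_add_le_add_left (a := μH[1] (K ∩ closedBall x r ∩ star b Z))
      (ne_top_of_le_ne_top hfin (measure_mono inter_subset_left)) ?_
    rw [e, add_zero]
    exact hle
  have hpos := h.reduced y hy.1 ρ hρ
  refine absurd (hpos.trans_le (le_of_le_of_eq (measure_mono fun w hw => ?_) hnull)) (lt_irrefl 0)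
  exact ⟨⟨hw.1, ball_subset_closedBall (hρs hw.2).1⟩, (hρs hw.2).2⟩

theorem star_middle (p q : ℂ) : star ((2 : ℝ)⁻¹ • (p + q)) {p, q} = segment ℝ p q := by
  set m : ℂ := (2 : ℝ)⁻¹ • (p + q) with hm
  have hmem : m ∈ segment ℝ p q :=
    ⟨2⁻¹, 2⁻¹, by norm_num, by norm_num, by norm_num, by rw [hm, smul_add]⟩
  simp only [star, Finset.mem_insert, Finset.mem_singleton, iUnion_iUnion_eq_or_left,
    iUnion_iUnion_eq_left]
  refine Subset.antisymm (union_subset ((convex_segment p q).segment_subset hmem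
    (left_mem_segment _ _ _)) ((convex_segment p q).segment_subset hmem
      (right_mem_segment _ _ _))) fun w hw => ?_
  rw [segment_eq_image'] at hw
  obtain ⟨θ, hθ, rfl⟩ := hw
  rcases le_total θ 2⁻¹ with hh | hh
  · left
    rw [segment_eq_image']
    exact ⟨1 - 2 * θ, ⟨by linarith, by linarith [hθ.1]⟩, by simp only [hm]; module⟩
  · right
    rw [segment_eq_image']
    exact ⟨2 * θ - 1, ⟨by linarith, by linarith [hθ.2]⟩, by simp only [hm]; module⟩

theorem middle_norm {p q : ℂ} (hp : ‖p - x‖ = r) (hq : ‖q - x‖ = r) :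
    ‖(2 : ℝ)⁻¹ • (p + q) - x‖ ^ 2 + ‖q - p‖ ^ 2 / 4 = r ^ 2 := by
  have e := parallelogram_law_with_norm ℝ (p - x) (q - x)
  rw [hp, hq, sub_sub_sub_cancel_right, norm_sub_rev p q] at e
  have e2 : (2 : ℝ)⁻¹ • (p + q) - x = (2 : ℝ)⁻¹ • (p - x + (q - x)) := by module
  rw [e2, norm_smul, Real.norm_of_nonneg (by norm_num : (0 : ℝ) ≤ 2⁻¹)]
  linear_combination (1 / 4 : ℝ) * e

theorem eq_middle {p q : ℂ} (hp : ‖p - x‖ = r) (hq : ‖q - x‖ = r) (hxs : x ∈ segment ℝ p q) :
    x = (2 : ℝ)⁻¹ • (p + q) := by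
  have e : ‖q - p‖ = r + r := by
    have hw : Wbtw ℝ p x q := mem_segment_iff_wbtw.1 hxs
    have h1 : dist p x = r := (dist_eq_norm p x).trans hp
    have h2 : dist x q = r := (dist_eq_norm' x q).trans hq
    rw [← dist_eq_norm' p q, ← (dist_add_dist_eq_iff (V := ℂ)).2 hw, h1, h2]
  have hpar := middle_norm hp hq
  rw [e] at hpar
  have h0 : ‖(2 : ℝ)⁻¹ • (p + q) - x‖ ^ 2 = 0 := by linarith
  exact (sub_eq_zero.1 (norm_eq_zero.1 ((pow_eq_zero_iff two_ne_zero).1 h0))).symm

/-- Two crossings: a diameter. -/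
theorem two_crossings (hR : GenReplaceSpec) (h : IsGM K u) (hflat : ∀ z ∉ K, gradSq u z = 0)
    (hx : x ∈ K) (c : Crossing K x r Z) (hc : Z.card = 2) :
    ∃ e : ℂ, ‖e‖ = 1 ∧ K ∩ ball x r = spider x {e, -e} ∩ ball x r := by
  classical
  obtain ⟨p, q, hpq, rfl⟩ := Finset.card_eq_two.1 hc
  have hp := (c.mem (Finset.mem_insert_self p {q})).2
  have hq := (c.mem (Finset.mem_insert_of_mem (Finset.mem_singleton_self q))).2
  obtain ⟨γ, T, hT, hlip, h0, h1, hmaps, htime⟩ :=
    c.exists_arc hR h hflat (Finset.mem_insert_self p {q})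
      (Finset.mem_insert_of_mem (Finset.mem_singleton_self q))
  set S := K ∩ closedBall x r with hS
  set m : ℂ := (2 : ℝ)⁻¹ • (p + q) with hm
  have hL : 0 < ‖q - p‖ := norm_pos_iff.2 (sub_ne_zero.2 (Ne.symm hpq))
  have hpar : ‖m - x‖ ^ 2 + ‖q - p‖ ^ 2 / 4 = r ^ 2 := middle_norm hp hq
  have hmx : ‖m - x‖ < r := by nlinarith [norm_nonneg (m - x), c.pos]
  have hub : μH[1] S ≤ ENNReal.ofReal ‖q - p‖ := by
    refine (c.length_le hR h hflat hmx).trans_eq ?_
    rw [Finset.sum_pair hpq, show p - m = (2 : ℝ)⁻¹ • (p - q) by rw [hm]; module,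
      show q - m = (2 : ℝ)⁻¹ • (q - p) by rw [hm]; module, norm_smul, norm_smul, norm_sub_rev p q,
      Real.norm_of_nonneg (by norm_num)]
    congr 1
    ring
  have hlow : ENNReal.ofReal T ≤ μH[1] (S ∩ γ '' Icc 0 T) := by
    refine le_trans (le_of_eq ?_) (htime _
      (isCompact_Icc.image_of_continuousOn hlip.continuousOn).isClosed.measurableSet)
    rw [inter_eq_left.2 (subset_preimage_image γ (Icc 0 T)), Real.volume_Icc, sub_zero]
  have hTle : T ≤ ‖q - p‖ := (ENNReal.ofReal_le_ofReal_iff hL.le).1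
    (hlow.trans ((measure_mono inter_subset_left).trans hub))
  have hTge : ‖q - p‖ ≤ T := by
    have := hlip.dist_le_mul T (right_mem_Icc.2 hT) 0 (left_mem_Icc.2 hT)
    simpa [h0, h1, dist_eq_norm, abs_of_nonneg hT] using this
  have himg : γ '' Icc 0 T = segment ℝ p q := by
    rw [← h0, ← h1]
    exact image_eq_segment hlip hT (by rw [h0, h1, sub_zero]; exact hTle)
  have hstar : star m {p, q} = segment ℝ p q := star_middle p q
  have key := eq_star_of_length h (b := m) (Z := {p, q})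
    (by rw [hstar, ← himg]; exact hmaps.image_subset)
    (ne_top_of_le_ne_top ENNReal.ofReal_ne_top hub)
    (by rw [hstar, ← himg]
        exact hub.trans ((ENNReal.ofReal_le_ofReal hTge).trans hlow))
  -- the centre is the middle of the segment
  have hxm : x = m := eq_middle hp hq
    (by rw [← hstar]; exact ((Set.ext_iff.1 key x).1 ⟨hx, mem_ball_self c.pos⟩).1)
  rw [← hxm, star_inter_ball (mem_ball_self c.pos) fun z hz => by
    rw [mem_sphere, dist_eq_norm]; exact (c.mem hz).2] at key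
  refine ⟨‖p - x‖⁻¹ • (p - x), ?_, ?_⟩
  · rw [norm_smul, norm_inv, norm_norm, hp, inv_mul_cancel₀ c.pos.ne']
  · rw [key]
    congr 2
    rw [Finset.image_insert, Finset.image_singleton, hp, hq, ← smul_neg]
    congr 3
    rw [hxm, hm]
    module

/-- Three crossings at angles near `2π/3`: three segments at `2π/3`. -/
theorem three_crossings (hR : GenReplaceSpec) (h : IsGM K u) (hflat : ∀ z ∉ K, gradSq u z = 0)
    (c : Crossing K x r Z) (hc : Z.card = 3)
    (hchord : ∀ z ∈ Z, ∀ w ∈ Z, z ≠ w → 3 / 2 * r < ‖z - w‖) :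
    ∃ b ∈ ball x r, ∃ e f g : ℂ, ‖e‖ = 1 ∧ ‖f‖ = 1 ∧ ‖g‖ = 1 ∧ e + f + g = 0 ∧
      K ∩ ball x r = spider b {e, f, g} ∩ ball x r := by
  classical
  obtain ⟨p, q, o, hpq, hpo, hqo, rfl⟩ := Finset.card_eq_three.1 hc
  have hpm : p ∈ ({p, q, o} : Finset ℂ) := by simp
  have hqm : q ∈ ({p, q, o} : Finset ℂ) := by simp
  have hom : o ∈ ({p, q, o} : Finset ℂ) := by simp
  set S := K ∩ closedBall x r with hS
  obtain ⟨γ, T, hT, hlip, h0, h1, hmaps, htime⟩ := c.exists_arc hR h hflat hpm hqm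
  obtain ⟨δ, T₂, hT₂, hlip₂, g0, g1, gmaps, gtime⟩ := c.exists_arc hR h hflat hom hpm
  set A := γ '' Icc 0 T
  have hAc : IsCompact A := isCompact_Icc.image_of_continuousOn hlip.continuousOn
  have hD : IsClosed (Icc 0 T₂ ∩ δ ⁻¹' A) :=
    hlip₂.continuousOn.preimage_isClosed_of_isClosed isClosed_Icc hAc.isClosed
  obtain ⟨T', hT'⟩ := (isCompact_Icc.of_isClosed_subset hD inter_subset_left).exists_isLeast
    ⟨T₂, right_mem_Icc.2 hT₂, ⟨0, left_mem_Icc.2 hT, h0.trans g1.symm⟩⟩
  obtain ⟨⟨hT'I, hT'A⟩, hmin⟩ := hT'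
  obtain ⟨s, hs, hb⟩ := hT'A
  set b := δ T'
  set B := δ '' Icc 0 T'
  have hBc : IsCompact B := isCompact_Icc.image_of_continuousOn
    (hlip₂.continuousOn.mono (Icc_subset_Icc le_rfl hT'I.2))
  have hlow : ENNReal.ofReal (T + T') ≤ μH[1] (S ∩ (A ∪ B)) := by
    have l1 : ENNReal.ofReal T ≤ μH[1] (S ∩ A) := by
      refine le_trans (le_of_eq ?_) (htime A hAc.isClosed.measurableSet)
      rw [inter_eq_left.2 (subset_preimage_image γ (Icc 0 T)), Real.volume_Icc, sub_zero]
    have l2 : ENNReal.ofReal T' ≤ μH[1] (S ∩ (B \ A)) := by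
      refine le_trans ?_ (gtime (B \ A) (hBc.isClosed.measurableSet.diff hAc.isClosed.measurableSet))
      rw [← sub_zero T', ← Real.volume_Ico]
      refine measure_mono fun t ht => ?_
      have ht2 : t ∈ Icc 0 T₂ := ⟨ht.1, ht.2.le.trans hT'I.2⟩
      exact ⟨ht2, ⟨t, ⟨ht.1, ht.2.le⟩, rfl⟩, fun hA => absurd (hmin ⟨ht2, hA⟩) (not_le.2 ht.2)⟩
    rw [ENNReal.ofReal_add hT hT'I.1]
    refine (add_le_add l1 l2).trans ?_
    rw [← union_sdiff_self (s := A) (t := B), inter_union_distrib_left,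
      measure_union' (disjoint_sdiff_self_right.mono inter_subset_right inter_subset_right)
        (((h.isClosed.inter isClosed_closedBall).inter hAc.isClosed).measurableSet)]
  have hsum : ∀ F : ℂ, ∑ z ∈ ({p, q, o} : Finset ℂ), ‖z - F‖ = ‖p - F‖ + (‖q - F‖ + ‖o - F‖) := by
    intro F
    rw [Finset.sum_insert (by simp [hpq, hpo]), Finset.sum_pair hqo]
  have hup : ∀ F : ℂ, ‖F - x‖ < r → T + T' ≤ ‖p - F‖ + (‖q - F‖ + ‖o - F‖) := by
    intro F hF
    refine (ENNReal.ofReal_le_ofReal_iff (by positivity)).1 ?_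
    rw [← hsum F]
    exact hlow.trans ((measure_mono inter_subset_left).trans (c.length_le hR h hflat hF))
  -- lengths of the three subpaths
  have hl : ∀ {γ : ℝ → ℂ} {T a a' : ℝ}, LipschitzOnWith 1 γ (Icc 0 T) → 0 ≤ a → a ≤ a' → a' ≤ T →
      ‖γ a' - γ a‖ ≤ a' - a := fun {γ T a a'} hL h1 h2 h3 => by
    have := hL.dist_le_mul a' ⟨h1.trans h2, h3⟩ a ⟨h1, h2.trans h3⟩
    simpa [dist_eq_norm, Real.dist_eq, abs_of_nonneg (sub_nonneg.2 h2)] using this
  have k1 : ‖b - p‖ ≤ s := by
    simpa [hb, h0] using hl hlip le_rfl hs.1 hs.2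
  have k2 : ‖q - b‖ ≤ T - s := by
    simpa [hb, h1] using hl hlip hs.1 hs.2 le_rfl
  have k3 : ‖b - o‖ ≤ T' := by
    simpa [g0, b] using hl hlip₂ le_rfl hT'I.1 hT'I.2
  have hbS : b ∈ S := gmaps hT'I
  have hbx : ‖b - x‖ < r := by
    have hle : ‖b - x‖ ≤ r := by rw [← dist_eq_norm]; exact mem_closedBall.1 hbS.2
    refine hle.lt_of_ne fun e => ?_
    have hbZ : b ∈ ({p, q, o} : Finset ℂ) := by
      have := (Set.ext_iff.1 c.eq b).2 ⟨hbS.1, by rwa [mem_sphere, dist_eq_norm]⟩
      exact Finset.mem_coe.1 this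
    have h3r := hup x (by simp [c.pos])
    rw [(c.mem hpm).2, (c.mem hqm).2, (c.mem hom).2] at h3r
    have np := norm_sub_rev p b
    have nq := norm_sub_rev q b
    have no := norm_sub_rev o b
    simp only [Finset.mem_insert, Finset.mem_singleton] at hbZ
    rcases hbZ with e | e | e <;> rw [e] at k1 k2 k3 np nq no
    · linarith [hchord q hqm p hpm hpq.symm, hchord p hpm o hom hpo, norm_nonneg (p - p)]
    · linarith [hchord q hqm p hpm hpq.symm, hchord q hqm o hom hqo, norm_nonneg (q - q)]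
    · linarith [hchord o hom p hpm hpo.symm, hchord q hqm o hom hqo, norm_nonneg (o - o)]
  have hopt := hup b hbx
  have np := norm_sub_rev b p
  have no := norm_sub_rev b o
  have i1 : γ '' Icc 0 s = segment ℝ p b := by
    rw [← h0, ← hb]
    refine image_eq_segment (hlip.mono (Icc_subset_Icc le_rfl hs.2)) hs.1 ?_
    rw [h0, hb]; linarith
  have i2 : γ '' Icc s T = segment ℝ b q := by
    rw [← h1, ← hb]
    refine image_eq_segment (hlip.mono (Icc_subset_Icc hs.1 le_rfl)) hs.2 ?_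
    rw [h1, hb]; linarith
  have i3 : B = segment ℝ o b := by
    rw [← g0]
    refine image_eq_segment (hlip₂.mono (Icc_subset_Icc le_rfl hT'I.2)) hT'I.1 ?_
    rw [g0, sub_zero]
    show T' ≤ ‖b - o‖
    linarith
  have hstar : star b {p, q, o} = A ∪ B := by
    have hA : A = segment ℝ p b ∪ segment ℝ b q := by
      rw [← i1, ← i2, ← image_union, Icc_union_Icc_eq_Icc hs.1 hs.2]
    rw [hA, i3, segment_symm ℝ p b, segment_symm ℝ o b, union_assoc]
    simp [star]
  have hlen := c.length_le hR h hflat hbx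
  have key := eq_star_of_length h (b := b) (Z := {p, q, o})
    (by
      rw [hstar]
      exact union_subset hmaps.image_subset
        ((gmaps.mono_left (Icc_subset_Icc le_rfl hT'I.2)).image_subset))
    (ne_top_of_le_ne_top ENNReal.ofReal_ne_top hlen)
    (by rw [hstar]
        refine hlen.trans ((ENNReal.ofReal_le_ofReal ?_).trans hlow)
        rw [hsum b]; linarith)
  rw [star_inter_ball (mem_ball.2 (by rwa [dist_eq_norm])) fun z hz => by
    rw [mem_sphere, dist_eq_norm]; exact (c.mem hz).2] at key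
  have hne : ∀ z ∈ ({p, q, o} : Finset ℂ), z - b ≠ 0 := fun z hz e => by
    have hzb : z = b := sub_eq_zero.1 e
    have h2 := (c.mem hz).2
    rw [hzb] at h2
    exact hbx.ne h2
  have hzero := sum_unit_eq_zero (hne p hpm) (hne q hqm) (hne o hom) (by
    have ht : Tendsto (fun w : ℂ => b + w) (𝓝 0) (𝓝 b) := by
      simpa [Pi.add_def] using ((continuous_const (y := b)).add continuous_id).tendsto (0 : ℂ)
    filter_upwards [ht.eventually (isOpen_ball.mem_nhds
      (show b ∈ ball x r by rwa [mem_ball, dist_eq_norm]))] with w hw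
    have hw' : ‖b + w - x‖ < r := by simpa [mem_ball, dist_eq_norm] using hw
    have := hup (b + w) hw'
    simp only [← sub_sub] at this
    linarith)
  refine ⟨b, by rwa [mem_ball, dist_eq_norm], _, _, _, ?_, ?_, ?_, hzero, ?_⟩
  · rw [norm_smul, norm_inv, norm_norm, inv_mul_cancel₀ (norm_ne_zero_iff.2 (hne p hpm))]
  · rw [norm_smul, norm_inv, norm_norm, inv_mul_cancel₀ (norm_ne_zero_iff.2 (hne q hqm))]
  · rw [norm_smul, norm_inv, norm_norm, inv_mul_cancel₀ (norm_ne_zero_iff.2 (hne o hom))]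
  · rw [key, Finset.image_insert, Finset.image_insert, Finset.image_singleton]

end Vale.Agent.P128.Flat
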