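import Vale.Agent.P128.Spec2

/-!
# P128, piece II-c: shortest connections and spiders
-/

open MeasureTheory Set Metric Filter
open scoped ENNReal Topology Real RealInnerProductSpace

noncomputable section

namespace Vale.Agent.P128.Flat

theorem tendsto_pos_id : Tendsto (fun s : ℝ => s) (𝓝[>] 0) (𝓝 0) := nhdsWithin_le_nhds

theorem tendsto_small (b e : ℂ) : Tendsto (fun s : ℝ => b + s • e) (𝓝[>] 0) (𝓝 b) := by
  simpa using (tendsto_pos_id.smul_const e).const_add b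

/-- A path which is no longer than the distance of its ends is the segment. -/
theorem image_eq_segment {γ : ℝ → ℂ} {a b : ℝ} (hl : LipschitzOnWith 1 γ (Icc a b)) (hab : a ≤ b)
    (h : b - a ≤ ‖γ b - γ a‖) : γ '' Icc a b = segment ℝ (γ a) (γ b) := by
  have hd : ∀ s ∈ Icc a b, ∀ t ∈ Icc a b, dist (γ s) (γ t) ≤ |s - t| := fun s hs t ht => by
    simpa [Real.dist_eq] using hl.dist_le_mul s hs t ht
  have ha : a ∈ Icc a b := left_mem_Icc.2 hab
  have hb : b ∈ Icc a b := right_mem_Icc.2 hab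
  have hL : dist (γ a) (γ b) = b - a := by
    have h1 := hd a ha b hb
    rw [abs_sub_comm, abs_of_nonneg (by linarith : 0 ≤ b - a)] at h1
    rw [← dist_eq_norm, dist_comm] at h
    linarith
  rcases hab.eq_or_lt with rfl | hlt
  · simp
  have key : ∀ t ∈ Icc a b, γ t = AffineMap.lineMap (γ a) (γ b) ((t - a) / (b - a)) := by
    intro t ht
    have h1 := hd a ha t ht
    have h2 := hd t ht b hb
    rw [abs_sub_comm, abs_of_nonneg (by linarith [ht.1] : 0 ≤ t - a)] at h1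
    rw [abs_sub_comm, abs_of_nonneg (by linarith [ht.2] : 0 ≤ b - t)] at h2
    have h3 := dist_triangle (γ a) (γ t) (γ b)
    have hne : b - a ≠ 0 := by linarith
    refine eq_lineMap_of_dist_eq_mul_of_dist_eq_mul ?_ ?_
    · rw [hL, div_mul_cancel₀ _ hne]; linarith
    · rw [hL, sub_mul, one_mul, div_mul_cancel₀ _ hne]; linarith
  rw [segment_eq_image_lineMap]
  ext z
  constructor
  · rintro ⟨t, ht, rfl⟩
    exact ⟨(t - a) / (b - a), ⟨div_nonneg (by linarith [ht.1]) (by linarith),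
      (div_le_one (by linarith)).2 (by linarith [ht.2])⟩, (key t ht).symm⟩
  · rintro ⟨s, hs, rfl⟩
    have hm : a + s * (b - a) ∈ Icc a b := ⟨by nlinarith [hs.1], by nlinarith [hs.2]⟩
    refine ⟨a + s * (b - a), hm, ?_⟩
    rw [key _ hm, add_sub_cancel_left, mul_div_cancel_right₀ _ (by linarith : b - a ≠ 0)]

/-- First order condition at a minimiser of the sum of the distances. -/
theorem sum_unit_eq_zero {c₁ c₂ c₃ : ℂ} (h1 : c₁ ≠ 0) (h2 : c₂ ≠ 0) (h3 : c₃ ≠ 0)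
    (hmin : ∀ᶠ w : ℂ in 𝓝 0, ‖c₁‖ + ‖c₂‖ + ‖c₃‖ ≤ ‖c₁ - w‖ + ‖c₂ - w‖ + ‖c₃ - w‖) :
    ‖c₁‖⁻¹ • c₁ + ‖c₂‖⁻¹ • c₂ + ‖c₃‖⁻¹ • c₃ = 0 := by
  set e : ℂ := ‖c₁‖⁻¹ • c₁ + ‖c₂‖⁻¹ • c₂ + ‖c₃‖⁻¹ • c₃ with he
  have step : ∀ c : ℂ, c ≠ 0 → ∀ s : ℝ,
      ‖c - s • e‖ ≤ ‖c‖ - s * ⟪‖c‖⁻¹ • c, e⟫ + s ^ 2 * ‖e‖ ^ 2 / (2 * ‖c‖) := by
    intro c hc s
    have hn : 0 < ‖c‖ := norm_pos_iff.2 hc
    have h := norm_sub_sq_real c (s • e)
    rw [real_inner_smul_right, norm_smul, mul_pow, Real.norm_eq_abs, sq_abs] at h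
    have e2 : ‖c‖ - s * ⟪‖c‖⁻¹ • c, e⟫ + s ^ 2 * ‖e‖ ^ 2 / (2 * ‖c‖) =
        (‖c - s • e‖ ^ 2 + ‖c‖ ^ 2) / (2 * ‖c‖) := by
      rw [real_inner_smul_left, h]; field_simp; ring
    rw [e2, le_div_iff₀ (by positivity)]
    nlinarith [sq_nonneg (‖c - s • e‖ - ‖c‖)]
  set C : ℝ := ‖e‖ ^ 2 / (2 * ‖c₁‖) + ‖e‖ ^ 2 / (2 * ‖c₂‖) + ‖e‖ ^ 2 / (2 * ‖c₃‖)
  have hev : ∀ᶠ s : ℝ in 𝓝[>] 0, ‖e‖ ^ 2 ≤ s * C := by
    have ht : Tendsto (fun s : ℝ => s • e) (𝓝[>] 0) (𝓝 0) := by
      simpa using tendsto_pos_id.smul_const e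
    filter_upwards [ht.eventually hmin, self_mem_nhdsWithin] with s hs hs0
    have hsum : ⟪‖c₁‖⁻¹ • c₁, e⟫ + ⟪‖c₂‖⁻¹ • c₂, e⟫ + ⟪‖c₃‖⁻¹ • c₃, e⟫ = ‖e‖ ^ 2 := by
      rw [← inner_add_left, ← inner_add_left, ← he, real_inner_self_eq_norm_sq]
    have a1 := step c₁ h1 s
    have a2 := step c₂ h2 s
    have a3 := step c₃ h3 s
    have hs' : (0 : ℝ) < s := hs0
    have : s * ‖e‖ ^ 2 ≤ s * (s * C) := by
      rw [← hsum]
      simp only [C]
      ring_nf at a1 a2 a3 hs ⊢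
      linarith
    exact le_of_mul_le_mul_left this hs'
  have hlim : Tendsto (fun s : ℝ => s * C) (𝓝[>] 0) (𝓝 0) := by
    simpa using tendsto_pos_id.mul_const C
  have := ge_of_tendsto hlim hev
  exact norm_eq_zero.1 (pow_eq_zero_iff two_ne_zero |>.1 (le_antisymm this (sq_nonneg _)))

/-- Union of the half lines from `b` in the directions of `E`. -/
def spider (b : ℂ) (E : Finset ℂ) : Set ℂ := {z | ∃ e ∈ E, ∃ t : ℝ, 0 ≤ t ∧ z = b + t • e}

/-- Union of the segments from `b` to the points of `Z`. -/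
def star (b : ℂ) (Z : Finset ℂ) : Set ℂ := ⋃ z ∈ Z, segment ℝ b z

theorem isCompact_star (b : ℂ) (Z : Finset ℂ) : IsCompact (star b Z) :=
  Z.isCompact_biUnion fun z _ => by
    rw [segment_eq_image_lineMap]
    exact isCompact_Icc.image AffineMap.lineMap_continuous

theorem hausdorff_star_le (b : ℂ) (Z : Finset ℂ) :
    μH[1] (star b Z) ≤ ENNReal.ofReal (∑ z ∈ Z, ‖z - b‖) := by
  rw [ENNReal.ofReal_sum_of_nonneg fun z _ => norm_nonneg _]
  refine (measure_biUnion_finset_le Z _).trans (Finset.sum_le_sum fun z _ => ?_)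
  rw [hausdorffMeasure_segment, edist_dist, dist_comm, dist_eq_norm]

/-- Inside the disc a star with ends on the circle is a spider. -/
theorem star_inter_ball {x b : ℂ} {r : ℝ} (hb : b ∈ ball x r) {Z : Finset ℂ}
    (hZ : ∀ z ∈ Z, z ∈ sphere x r) :
    star b Z ∩ ball x r = spider b (Z.image fun z => ‖z - b‖⁻¹ • (z - b)) ∩ ball x r := by
  have hne : ∀ z ∈ Z, 0 < ‖z - b‖ := fun z hz => by
    refine norm_pos_iff.2 (sub_ne_zero.2 fun e => ?_)
    have := hZ z hz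
    rw [e, mem_sphere] at this
    exact absurd (mem_ball.1 hb) (by linarith)
  ext w
  simp only [star, spider, mem_inter_iff, mem_iUnion, exists_prop, mem_ofPred_eq,
    Finset.mem_image, exists_exists_and_eq_and, and_congr_left_iff]
  intro hw
  constructor
  · rintro ⟨z, hz, hwz⟩
    rw [segment_eq_image'] at hwz
    obtain ⟨θ, hθ, rfl⟩ := hwz
    refine ⟨z, hz, θ * ‖z - b‖, mul_nonneg hθ.1 (norm_nonneg _), ?_⟩
    rw [smul_smul, mul_assoc, mul_inv_cancel₀ (hne z hz).ne', mul_one]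
  · rintro ⟨z, hz, t, ht, rfl⟩
    refine ⟨z, hz, ?_⟩
    set p : ℂ := b + t • ‖z - b‖⁻¹ • (z - b) with hp
    have hle : t ≤ ‖z - b‖ := by
      by_contra hlt
      rw [not_le] at hlt
      have ht0 : 0 < t := lt_trans (hne z hz) hlt
      have hmem : z ∈ segment ℝ b p := by
        rw [segment_eq_image']
        refine ⟨‖z - b‖ / t, ⟨by positivity, (div_le_one ht0).2 hlt.le⟩, ?_⟩
        simp only [hp, add_sub_cancel_left, smul_smul]
        rw [← mul_assoc, div_mul_cancel₀ _ ht0.ne', mul_inv_cancel₀ (hne z hz).ne', one_smul,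
          add_sub_cancel]
      have := (convex_ball x r).segment_subset hb hw hmem
      have h' := hZ z hz
      rw [mem_sphere] at h'
      exact absurd (mem_ball.1 this) (by linarith)
    rw [segment_eq_image']
    refine ⟨t / ‖z - b‖, ⟨div_nonneg ht (norm_nonneg _), (div_le_one (hne z hz)).2 hle⟩, ?_⟩
    simp only [hp, smul_smul, div_eq_mul_inv]

/-- The directions are determined by the spider near its centre. -/
theorem dirs_subset {b : ℂ} {E E' : Finset ℂ} (hE : ∀ e ∈ E, ‖e‖ = 1) (hE' : ∀ e ∈ E', ‖e‖ = 1)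
    (h : ∀ᶠ w in 𝓝 b, w ∈ spider b E → w ∈ spider b E') : E ⊆ E' := by
  intro e he
  have ht := tendsto_small b e
  obtain ⟨s, hs, hs0⟩ := ((ht.eventually h).and self_mem_nhdsWithin).exists
  have hs' : (0 : ℝ) < s := hs0
  obtain ⟨e', he', t, ht0, heq⟩ := hs ⟨e, he, s, hs'.le, rfl⟩
  have hse : s • e = t • e' := add_left_cancel heq
  have : s = t := by
    have := congrArg (fun v : ℂ => ‖v‖) hse
    simpa [norm_smul, hE e he, hE' e' he', abs_of_nonneg hs'.le, abs_of_nonneg ht0] using this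
  subst this
  rwa [smul_right_injective ℂ hs'.ne' hse]

/-- Two spiders with at least three unit directions, the second at angles `2π/3`, agreeing near the
centre of the first have the same centre. -/
theorem center_eq {b b' : ℂ} {E E' : Finset ℂ} (hE : ∀ e ∈ E, ‖e‖ = 1) (h3 : 3 ≤ E.card)
    (hE' : ∀ e ∈ E', ‖e‖ = 1) (hang : ∀ e ∈ E', ∀ f ∈ E', e ≠ f → ⟪e, f⟫ ≤ 0)
    (h : ∀ᶠ w in 𝓝 b, w ∈ spider b E → w ∈ spider b' E') : b = b' := by
  by_contra hne
  have hnem : E.Nonempty := Finset.card_pos.1 (by omega)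
  obtain ⟨e₀, he₀⟩ := hnem
  obtain ⟨k, hk, t, ht, hbt⟩ := (h.self_of_nhds) ⟨e₀, he₀, 0, le_rfl, by simp⟩
  have ht0 : 0 < t := ht.lt_of_ne fun e => hne (by simp [hbt, ← e])
  have key : E ⊆ {k, -k} := by
    intro e he
    have htd := tendsto_small b e
    obtain ⟨ρ, ⟨hρm, hρt⟩, hρ0⟩ := (((htd.eventually h).and (nhdsWithin_le_nhds
      (eventually_lt_nhds ht0))).and self_mem_nhdsWithin).exists
    have hρ : (0 : ℝ) < ρ := hρ0
    obtain ⟨f, hf, s, hs, heq⟩ := hρm ⟨e, he, ρ, hρ.le, rfl⟩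
    have heq' : ρ • e = s • f - t • k := by
      rw [hbt, add_assoc] at heq
      rw [eq_sub_iff_add_eq, add_comm]
      exact add_left_cancel heq
    by_cases hfk : f = k
    · subst hfk
      rw [← sub_smul] at heq'
      have hn := congrArg (fun v : ℂ => ‖v‖) heq'
      simp only [norm_smul, Real.norm_eq_abs, abs_of_pos hρ, hE e he, hE' f hf, mul_one] at hn
      have heq2 : e = ((s - t) / ρ) • f := by
        rw [div_eq_inv_mul, ← smul_smul, ← heq', smul_smul, inv_mul_cancel₀ hρ.ne', one_smul]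
      rcases le_or_gt 0 (s - t) with hst | hst
      · rw [abs_of_nonneg hst] at hn
        simp [heq2, ← hn, hρ.ne']
      · rw [abs_of_neg hst] at hn
        simp [heq2, show s - t = -ρ by linarith, hρ.ne']
    · exfalso
      have h1 := norm_sub_sq_real (s • f) (t • k)
      rw [← heq', real_inner_smul_left, real_inner_smul_right, norm_smul, norm_smul, norm_smul,
        hE e he, hE' f hf, hE' k hk] at h1
      simp only [mul_one, Real.norm_eq_abs, sq_abs] at h1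
      nlinarith [mul_nonpos_of_nonneg_of_nonpos (mul_nonneg hs ht) (hang f hf k hk hfk)]
  have := (Finset.card_le_card key).trans Finset.card_le_two
  omega

end Vale.Agent.P128.Flat
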